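import Mathlib

/-! Row 325, module M5 (helper91): cut functions, sparsifiers with Steiner nodes, and the
composition of two stages (the quality multiplies). -/

set_option autoImplicit false
open Finset

namespace Crest.Agent.N325.St

open Classical in
/-- capacity of the edges `e ∈ I` (ends `a e`, `b e`, capacity `u e`) that cross `S` -/
noncomputable def cutF {ι : Type*} (I : Finset ι) (a b u : ι → ℕ) (S : Set ℕ) : ℕ :=
  ∑ e ∈ I, if (a e ∈ S ↔ b e ∈ S) then 0 else u e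

/-- `f` does not look at the vertices in `N` -/
def Blind (f : Set ℕ → ℕ) (N : Set ℕ) : Prop :=
  ∀ S S' : Set ℕ, (∀ v, v ∉ N → (v ∈ S' ↔ v ∈ S)) → f S' = f S

/-- `g` (with the new nodes `N`) dominates `f` and has quality `q` -/
structure Spar (q : ℕ) (N : Set ℕ) (f g : Set ℕ → ℕ) : Prop where
  dom : ∀ S, f S ≤ g S
  qual : ∀ S, ∃ S' : Set ℕ, (∀ v, v ∉ N → (v ∈ S' ↔ v ∈ S)) ∧ g S' ≤ q * f S

theorem blind_cutF {ι : Type*} (I : Finset ι) (a b u : ι → ℕ) (N : Set ℕ)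
    (h : ∀ e ∈ I, a e ∉ N ∧ b e ∉ N) : Blind (cutF I a b u) N := by
  intro S S' hS
  unfold cutF
  refine sum_congr rfl fun e he => ?_
  rw [hS _ (h e he).1, hS _ (h e he).2]

theorem Blind.add {f g : Set ℕ → ℕ} {N : Set ℕ} (hf : Blind f N) (hg : Blind g N) :
    Blind (fun S => f S + g S) N := fun S S' h => by
  simp only [hf S S' h, hg S S' h]

theorem Blind.mono {f : Set ℕ → ℕ} {N N' : Set ℕ} (hf : Blind f N) (h : N' ⊆ N) : Blind f N' :=
  fun S S' hS => hf S S' fun v hv => hS v fun h' => hv (h h')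

theorem cutF_union {ι : Type*} [DecidableEq ι] {I J : Finset ι} (h : Disjoint I J)
    (a b u : ι → ℕ) (S : Set ℕ) :
    cutF (I ∪ J) a b u S = cutF I a b u S + cutF J a b u S := by
  unfold cutF; rw [sum_union h]

theorem cutF_congr {ι : Type*} {I : Finset ι} {a b u a' b' u' : ι → ℕ}
    (h : ∀ e ∈ I, a e = a' e ∧ b e = b' e ∧ u e = u' e) (S : Set ℕ) :
    cutF I a b u S = cutF I a' b' u' S := by
  unfold cutF
  refine sum_congr rfl fun e he => ?_
  rw [(h e he).1, (h e he).2.1, (h e he).2.2]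

theorem cutF_mono {ι : Type*} {I J : Finset ι} (h : I ⊆ J) (a b u : ι → ℕ) (S : Set ℕ) :
    cutF I a b u S ≤ cutF J a b u S := by
  unfold cutF; exact sum_le_sum_of_subset h

theorem Spar.refl (f : Set ℕ → ℕ) : Spar 1 ∅ f f :=
  ⟨fun _ => le_rfl, fun S => ⟨S, fun _ _ => Iff.rfl, by simp⟩⟩

theorem Spar.mono {q q' : ℕ} {N N' : Set ℕ} {f g : Set ℕ → ℕ} (h : Spar q N f g) (hq : q ≤ q')
    (hN : N ⊆ N') : Spar q' N' f g :=
  ⟨h.dom, fun S => by
    obtain ⟨S', h1, h2⟩ := h.qual S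
    exact ⟨S', fun v hv => h1 v fun h' => hv (hN h'), h2.trans (Nat.mul_le_mul_right _ hq)⟩⟩

theorem Spar.congr {q : ℕ} {N : Set ℕ} {f g f' g' : Set ℕ → ℕ} (h : Spar q N f g)
    (hf : ∀ S, f' S = f S) (hg : ∀ S, g' S = g S) : Spar q N f' g' := by
  have h1 : f' = f := funext hf
  have h2 : g' = g := funext hg
  rw [h1, h2]; exact h

/-- adding the same edges (away from the new nodes) on both sides -/
theorem Spar.add {q : ℕ} {N : Set ℕ} {f g r : Set ℕ → ℕ} (h : Spar q N f g) (hq : 1 ≤ q)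
    (hr : Blind r N) : Spar q N (fun S => f S + r S) (fun S => g S + r S) :=
  ⟨fun S => Nat.add_le_add_right (h.dom S) _, fun S => by
    obtain ⟨S', h1, h2⟩ := h.qual S
    refine ⟨S', h1, ?_⟩
    have h3 := hr S S' h1
    have h4 : r S ≤ q * r S := Nat.le_mul_of_pos_left _ hq
    simp only [h3, mul_add]; omega⟩

theorem Spar.trans {q q' : ℕ} {N N' : Set ℕ} {f g k : Set ℕ → ℕ} (h : Spar q N f g)
    (h' : Spar q' N' g k) : Spar (q' * q) (N ∪ N') f k :=
  ⟨fun S => (h.dom S).trans (h'.dom S), fun S => by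
    obtain ⟨S1, h1, h2⟩ := h.qual S
    obtain ⟨S2, h3, h4⟩ := h'.qual S1
    refine ⟨S2, fun v hv => ?_, ?_⟩
    · simp only [Set.mem_union, not_or] at hv
      rw [h3 v hv.2, h1 v hv.1]
    · calc k S2 ≤ q' * g S1 := h4
        _ ≤ q' * (q * f S) := Nat.mul_le_mul_left _ h2
        _ = q' * q * f S := by ring⟩

/-- **two stages.** `t` sparsifies `h`; `f` = inserted edges; `t + f = r + h'` (hanging part plus
the graph of the next stage); `t'` sparsifies `h'`. Then `r + t'` sparsifies `h + f`. -/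
theorem Spar.stage {q q' : ℕ} {N N' : Set ℕ} {h t f r h' t' : Set ℕ → ℕ} (hq : 1 ≤ q)
    (hq' : 1 ≤ q') (h1 : Spar q N h t) (hf : Blind f N) (he : ∀ S, t S + f S = h' S + r S)
    (h2 : Spar q' N' h' t') (hr : Blind r N') :
    Spar (q' * q) (N ∪ N') (fun S => h S + f S) (fun S => t' S + r S) :=
  (h1.add hq hf).trans ((h2.add hq' hr).congr he fun _ => rfl)

/-- a demand that is small against `g` on all sets and blind to the new nodes is small
against `f` -/
theorem Spar.cert {q : ℕ} {N : Set ℕ} {f g : Set ℕ → ℕ} (h : Spar q N f g) (d : Set ℕ → ℝ)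
    (hd : ∀ S S' : Set ℕ, (∀ v, v ∉ N → (v ∈ S' ↔ v ∈ S)) → d S' = d S) {θ : ℝ} (hθ : 0 ≤ θ)
    (hg : ∀ S, |d S| ≤ θ * g S) (S : Set ℕ) : |d S| ≤ θ * q * f S := by
  obtain ⟨S', h1, h2⟩ := h.qual S
  rw [← hd S S' h1]
  refine (hg S').trans ?_
  have : (g S' : ℝ) ≤ q * f S := by exact_mod_cast h2
  rw [mul_assoc]; exact mul_le_mul_of_nonneg_left this hθ

end Crest.Agent.N325.St
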